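import Vale.Agent.P356.SA.Near679
import Vale.Agent.P356.SA.Ssa679
import Vale.Agent.P356.SA.Strict679
import Vale.Agent.P356.SA.Decouple
import Vale.Agent.P356.SA.Loc
import Vale.Agent.P356.NA.Gap679
import Vale.Agent.P356.SV.Contr679
import Vale.Agent.P356.SV.Rect
import Vale.Agent.P356.SV.Region
import Vale.Agent.P356.SV.Ent

open Vale.Agent.P356 Vale.Agent.P356.SV Vale.Agent.P356.NA Vale.Agent.P356.SA

/-- (1) The area law, without logarithms and for every region of the square, for the unique ground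
states of frustration free Hamiltonians with a local gap: the entanglement entropy is at most
`C |∂A|`. It is also recorded that such a Hamiltonian is admissible and has spectral gap at least
`Δ` in the sense of the problem.
(2) Sub-volume law for every admissible gapped Hamiltonian (frustrated or not) and every region.
All constants depend only on the local dimension, the range, the strength and the gap. -/
theorem Vale.Agent.Results.P356.AreaLaw.result :
    ∀ (q R : ℕ) (J Δ : ℝ), 1 ≤ q → 0 < J → 0 < Δ →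
      (∃ C : ℝ, 0 ≤ C ∧
        ∀ (L : ℕ) (h : Finset (Site L) → Op (Site L) q) (Ω : Conf (Site L) q → ℂ),
        FFLG L q R J Δ h Ω →
          Admissible L q R J (∑ X, h X) ∧ GappedGround (∑ X, h X) Δ 0 Ω ∧
          ∀ A : Finset (Site L), entropyOf A Ω ≤ C * (bdry A : ℝ)) ∧
      (∃ a C : ℝ, 0 < a ∧ a < 1 ∧ 0 ≤ C ∧
        ∀ (L : ℕ) (H : Op (Site L) q), Admissible L q R J H →
        ∀ (E : ℝ) (Ω : Conf (Site L) q → ℂ), GappedGround H Δ E Ω →
        ∀ A : Finset (Site L), entropyOf A Ω ≤ C * (bdry A : ℝ) ^ (2 - a)) := by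
  intro q R J Δ hq hJ hΔ
  have hκ : 0 ≤ Real.log q := Real.log_nonneg (by exact_mod_cast hq)
  refine ⟨?_, ?_⟩
  · obtain ⟨a, b, C, ha, ha1, hb, hab, hC, hdec⟩ :=
      decouple q R hq J Δ hJ hΔ (near_law q R hq J Δ hJ hΔ)
    obtain ⟨C₁, hC₁, hloc⟩ := loc_of_dec ha ha1 hb hab hC
    have hab0 : 0 < a * b := mul_pos ha (by linarith)
    obtain ⟨C₂, hC₂, hall⟩ := strict_all hab0 hab hC₁
    refine ⟨C₂, hC₂.le, ?_⟩
    intro L h Ω hF
    have hΩ : nsq Ω = 1 := hF.unit
    have hE := entLike Ω hΩ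
    exact ⟨hF.admissible679, hF.gapped679 hΔ, fun A =>
      hall L _ hE (hloc L _ hE (hdec L h Ω hF)) A⟩
  · obtain ⟨ρ, C, hρ, hC, hcon⟩ := contraction q R hq J Δ hJ hΔ
    obtain ⟨c, a, hc, ha, ha1, hrect⟩ := rect_bound ρ hρ C (Real.log q) hC hκ
    obtain ⟨C', hC', hgen⟩ := general_region c a (Real.log q) hc ha ha1 hκ
    have ha2 : a / (1 + a) < 1 := by
      rw [div_lt_one (by linarith)]
      linarith
    refine ⟨a / (1 + a), C', by positivity, ha2, hC', ?_⟩
    intro L H hA E Ω hg A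
    have hΩ : nsq Ω = 1 := hg.1
    refine hgen L (fun A => entropyOf A Ω) (fun A => entropy_nonneg A Ω hΩ)
      (fun A B hAB => entropy_union A B hAB Ω hΩ) (fun A => entropy_compl A Ω hΩ)
      (fun A => entropy_le_card hq A Ω hΩ) ?_ A
    exact hrect L (fun A => entropyOf A Ω) (fun A => entropy_nonneg A Ω hΩ)
      (fun A B hAB => entropy_union A B hAB Ω hΩ) (fun A => entropy_le_card hq A Ω hΩ)
      (fun l x y x0 x1 y0 y1 => hcon L H hA E Ω hg l x y x0 x1 y0 y1)
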