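import Vale.Agent.P356.GA.Fin551
import Vale.Agent.P356.GA.S1Fin394

open Vale.Agent.P356 Vale.Agent.P356.SV Vale.Agent.P356.GA

/-- **The area law for the unique ground states of all gapped Hamiltonians in two dimensions.**
For all `q`, `R`, `J`, `Δ` there is a constant `C` such that for every `L`, every admissible
Hamiltonian `H` on the `L` by `L` square (local dimension `q`, range `R`, strength `J`) with unit
ground state `Ω` and spectral gap at least `Δ`, and every region `A`, the entanglement entropy of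
`A` is at most `C |∂A|`. -/
theorem Vale.Agent.Results.P356.AreaLawAllGapped.result :
    ∀ (q R : ℕ) (J Δ : ℝ), 1 ≤ q → 0 < J → 0 < Δ →
      ∃ C : ℝ, 0 ≤ C ∧
        ∀ (L : ℕ) (H : Op (Site L) q), Admissible L q R J H →
        ∀ (E : ℝ) (Ω : Conf (Site L) q → ℂ), GappedGround H Δ E Ω →
        ∀ A : Finset (Site L), entropyOf A Ω ≤ C * (bdry A : ℝ) := by
  intro q R J Δ hq hJ hΔ
  obtain ⟨C, hC, h⟩ := strict_of_EnP551 (R := R) hq hJ hΔ
    (fun a C₁ C₂ ha ha1 _ _ => EnP_of_S1P hq hJ.le ha ha1 (s1P394 hq ha ha1))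
  exact ⟨C, hC.le, fun L H hH E Ω hg A => h L H E Ω hH hg A⟩
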