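import Vale.Agent.P356.GA.Fin551
import Vale.Agent.P356.GA.S1Fin394
import Vale.Agent.P356.H382.Group

namespace Vale.Agent.Results.P356.AreaLawAllSlabs

open Vale.Agent.P356 Vale.Agent.P356.SV Vale.Agent.P356.GA Vale.Agent.P356.Slab

/-- the area law for the square, in the definitions of `Vale/Agent/P356/Defs.lean` -/
theorem base (q R : ℕ) (J Δ : ℝ) (hq : 1 ≤ q) (hJ : 0 < J) (hΔ : 0 < Δ) :
    ∃ C : ℝ, 0 ≤ C ∧
      ∀ (L : ℕ) (H : Op (Site L) q), Admissible L q R J H →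
      ∀ (E : ℝ) (Ω : Conf (Site L) q → ℂ), GappedGround H Δ E Ω →
      ∀ A : Finset (Site L), entropyOf A Ω ≤ C * (bdry A : ℝ) := by
  obtain ⟨C, hC, h⟩ := strict_of_EnP551 (R := R) hq hJ hΔ
    (fun a C₁ C₂ ha ha1 _ _ => EnP_of_S1P hq hJ.le ha ha1 (s1P394 hq ha ha1))
  exact ⟨C, hC.le, fun L H hH E Ω hg A => h L H E Ω hH hg A⟩

/-- **The area law for gapped ground states on the square lattice and on slabs.** (1) For all
`q, R, J, Δ` there is `C` such that for every `L`, every admissible Hamiltonian on the square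
`{1,…,L}²` with ground state `Ω` and spectral gap at least `Δ`, and every region `A`, the
entanglement entropy of `A` is at most `C |∂A|`. (2) The same for the slabs `{1,…,L}² × {1,…,h}` of
`ℤ³`, for every fixed number `h` of layers, with `C` depending also on `h` and `∂A` the edge
boundary in the slab. -/
theorem result :
    (∀ (q R : ℕ) (J Δ : ℝ), 1 ≤ q → 0 < J → 0 < Δ → ∃ C : ℝ, ∀ (L : ℕ)
      (H : Matrix (Fin L × Fin L → Fin q) (Fin L × Fin L → Fin q) ℂ),
      IsAdmissible dist2 R J H →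
      ∀ (E : ℝ) (Ω : (Fin L × Fin L → Fin q) → ℂ), IsGapped H Δ E Ω →
      ∀ A : Finset (Fin L × Fin L), entropy A Ω ≤ C * (cutSize dist2 A : ℝ)) ∧
    (∀ (q R h : ℕ) (J Δ : ℝ), 1 ≤ q → 0 < J → 0 < Δ → ∃ C : ℝ, ∀ (L : ℕ)
      (H : Matrix ((Fin L × Fin L) × Fin h → Fin q) ((Fin L × Fin L) × Fin h → Fin q) ℂ),
      IsAdmissible dist3 R J H →
      ∀ (E : ℝ) (Ω : ((Fin L × Fin L) × Fin h → Fin q) → ℂ), IsGapped H Δ E Ω →
      ∀ A : Finset ((Fin L × Fin L) × Fin h), entropy A Ω ≤ C * (cutSize dist3 A : ℝ)) := by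
  constructor
  · intro q R J Δ hq hJ hΔ
    obtain ⟨C, -, h⟩ := base q R J Δ hq hJ hΔ
    refine ⟨C, fun L H hH E Ω hg A => ?_⟩
    rw [entropy_eq, cutSize_eq]
    exact h L H (hH.adm hJ.le) E Ω hg.gapped A
  · intro q R h J Δ hq hJ hΔ
    have hJ' : 0 < strength h R J := mul_pos (by positivity) hJ
    obtain ⟨C, hC, hb⟩ := base (q ^ h) R (strength h R J) Δ (Nat.one_le_pow _ _ hq) hJ' hΔ
    exact ⟨C + h * Real.log q, fun L H hH E Ω hg A =>
      slab_of_square hq hJ.le hC (fun H' hH' E' Ω' hg' A' => hb L H' hH' E' Ω' hg' A') hH hg A⟩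

end Vale.Agent.Results.P356.AreaLawAllSlabs
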