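import Vale.Agent.P356.PH.PathLaw
import Vale.Agent.P356.SA.Near679
import Vale.Agent.P356.SA.Ssa679
import Vale.Agent.P356.SA.Strict679
import Vale.Agent.P356.SA.Decouple
import Vale.Agent.P356.SA.Loc
import Vale.Agent.P356.NA.Gap679
import Vale.Agent.P356.SV.Contr679
import Vale.Agent.P356.SV.Rect
import Vale.Agent.P356.SV.Region
import Vale.Agent.P356.SV.Ent

open Vale.Agent.P356 Vale.Agent.P356.SV Vale.Agent.P356.NA Vale.Agent.P356.SA
open Vale.Agent.P356.PH

/-- (1) The area law, without logarithms and for every region of the square, for the ground states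
of all Hamiltonians, frustrated or not and without a local gap, that can be joined by a path of
uniformly gapped Hamiltonians, Lipschitz in each term, to a frustration free Hamiltonian with a
local gap: the entanglement entropy is at most `C |∂A|`. It is also recorded that the Hamiltonian
at the end of the path is admissible and has spectral gap at least `Δ` in the sense of the problem.
(2) The area law for the frustration free Hamiltonians with a local gap (the constant path), which
are admissible with spectral gap at least `Δ`.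
(3) Sub-volume law for every admissible gapped Hamiltonian (frustrated or not) and every region.
All constants depend only on the local dimension, the range, the strength, the gap and, in (1), on
the Lipschitz constant. -/
theorem Vale.Agent.Results.P356.AreaLawPhases.result :
    ∀ (q R : ℕ) (J Δ : ℝ), 1 ≤ q → 0 < J → 0 < Δ →
      (∀ ℓ : ℝ, 0 ≤ ℓ → ∃ C : ℝ, 0 ≤ C ∧
        ∀ (L : ℕ) (h : ℝ → Finset (Site L) → Op (Site L) q) (E : ℝ → ℝ)
          (Ω : ℝ → Conf (Site L) q → ℂ),
        GappedPath L q R J Δ ℓ h E Ω → FFLG L q R J Δ (h 0) (Ω 0) →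
          Admissible L q R J (∑ X, h 1 X) ∧ GappedGround (∑ X, h 1 X) Δ (E 1) (Ω 1) ∧
          ∀ A : Finset (Site L), entropyOf A (Ω 1) ≤ C * (bdry A : ℝ)) ∧
      (∃ C : ℝ, 0 ≤ C ∧
        ∀ (L : ℕ) (h : Finset (Site L) → Op (Site L) q) (Ω : Conf (Site L) q → ℂ),
        FFLG L q R J Δ h Ω →
          Admissible L q R J (∑ X, h X) ∧ GappedGround (∑ X, h X) Δ 0 Ω ∧
          ∀ A : Finset (Site L), entropyOf A Ω ≤ C * (bdry A : ℝ)) ∧
      (∃ a C : ℝ, 0 < a ∧ a < 1 ∧ 0 ≤ C ∧
        ∀ (L : ℕ) (H : Op (Site L) q), Admissible L q R J H →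
        ∀ (E : ℝ) (Ω : Conf (Site L) q → ℂ), GappedGround H Δ E Ω →
        ∀ A : Finset (Site L), entropyOf A Ω ≤ C * (bdry A : ℝ) ^ (2 - a)) := by
  intro q R J Δ hq hJ hΔ
  have hκ : 0 ≤ Real.log q := Real.log_nonneg (by exact_mod_cast hq)
  have hff : ∃ C : ℝ, 0 ≤ C ∧
        ∀ (L : ℕ) (h : Finset (Site L) → Op (Site L) q) (Ω : Conf (Site L) q → ℂ),
        FFLG L q R J Δ h Ω →
          Admissible L q R J (∑ X, h X) ∧ GappedGround (∑ X, h X) Δ 0 Ω ∧
          ∀ A : Finset (Site L), entropyOf A Ω ≤ C * (bdry A : ℝ) := by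
    obtain ⟨a, b, C, ha, ha1, hb, hab, hC, hdec⟩ :=
      decouple q R hq J Δ hJ hΔ (near_law q R hq J Δ hJ hΔ)
    obtain ⟨C₁, hC₁, hloc⟩ := loc_of_dec ha ha1 hb hab hC
    have hab0 : 0 < a * b := mul_pos ha (by linarith)
    obtain ⟨C₂, hC₂, hall⟩ := strict_all hab0 hab hC₁
    refine ⟨C₂, hC₂.le, ?_⟩
    intro L h Ω hF
    have hΩ : nsq Ω = 1 := hF.unit
    have hE := entLike Ω hΩ
    exact ⟨hF.admissible679, hF.gapped679 hΔ, fun A =>
      hall L _ hE (hloc L _ hE (hdec L h Ω hF)) A⟩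
  refine ⟨?_, hff, ?_⟩
  · intro ℓ hℓ
    obtain ⟨C, hC, hall⟩ := hff
    obtain ⟨C', hC', hpath⟩ := path_law q R hq J Δ ℓ hJ hΔ hℓ
    refine ⟨C + C', by linarith, ?_⟩
    intro L h E Ω hP hF
    have h1 := hP.terms 1 zero_le_one le_rfl
    refine ⟨⟨h 1, fun X => ⟨h1.herm X, h1.loc X, h1.norm X, h1.range X⟩, rfl⟩,
      hP.gap 1 zero_le_one le_rfl, fun A => ?_⟩
    have h2 := hpath L h E Ω hP A
    have h3 := (hall L (h 0) (Ω 0) hF).2.2 A
    linarith
  · obtain ⟨ρ, C, hρ, hC, hcon⟩ := contraction q R hq J Δ hJ hΔ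
    obtain ⟨c, a, hc, ha, ha1, hrect⟩ := rect_bound ρ hρ C (Real.log q) hC hκ
    obtain ⟨C', hC', hgen⟩ := general_region c a (Real.log q) hc ha ha1 hκ
    have ha2 : a / (1 + a) < 1 := by
      rw [div_lt_one (by linarith)]
      linarith
    refine ⟨a / (1 + a), C', by positivity, ha2, hC', ?_⟩
    intro L H hA E Ω hg A
    have hΩ : nsq Ω = 1 := hg.1
    refine hgen L (fun A => entropyOf A Ω) (fun A => entropy_nonneg A Ω hΩ)
      (fun A B hAB => entropy_union A B hAB Ω hΩ) (fun A => entropy_compl A Ω hΩ)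
      (fun A => entropy_le_card hq A Ω hΩ) ?_ A
    exact hrect L (fun A => entropyOf A Ω) (fun A => entropy_nonneg A Ω hΩ)
      (fun A B hAB => entropy_union A B hAB Ω hΩ) (fun A => entropy_le_card hq A Ω hΩ)
      (fun l x y x0 x1 y0 y1 => hcon L H hA E Ω hg l x y x0 x1 y0 y1)
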