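import Vale.Agent.P356.NA.Layer
import Vale.Agent.P356.NA.Poly
import Vale.Agent.P356.NA.Reg
import Vale.Agent.P356.NA.Gap679
import Vale.Agent.P356.SV.Contr679
import Vale.Agent.P356.SV.Rect
import Vale.Agent.P356.SV.Region
import Vale.Agent.P356.SV.Ent

open Vale.Agent.P356 Vale.Agent.P356.SV Vale.Agent.P356.NA

/-- (1) Area law up to a power of the logarithm of the boundary, for every region of the square,
for the unique ground states of frustration free Hamiltonians with a local gap: the entanglement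
entropy is at most `C |∂A| (1 + log |∂A|) ^ c`. It is also recorded that such a Hamiltonian is
admissible and has spectral gap at least `Δ` in the sense of the problem.
(2) Sub-volume law for every admissible gapped Hamiltonian (frustrated or not) and every region.
All constants depend only on the local dimension, the range, the strength and the gap. -/
theorem Vale.Agent.Results.P356.NearArea.result :
    ∀ (q R : ℕ) (J Δ : ℝ), 1 ≤ q → 0 < J → 0 < Δ →
      (∃ C c : ℝ, 0 ≤ C ∧ 0 ≤ c ∧
        ∀ (L : ℕ) (h : Finset (Site L) → Op (Site L) q) (Ω : Conf (Site L) q → ℂ),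
        FFLG L q R J Δ h Ω →
          Admissible L q R J (∑ X, h X) ∧ GappedGround (∑ X, h X) Δ 0 Ω ∧
          ∀ A : Finset (Site L),
            entropyOf A Ω ≤ C * (bdry A : ℝ) * (1 + Real.log (bdry A)) ^ c) ∧
      (∃ a C : ℝ, 0 < a ∧ a < 1 ∧ 0 ≤ C ∧
        ∀ (L : ℕ) (H : Op (Site L) q), Admissible L q R J H →
        ∀ (E : ℝ) (Ω : Conf (Site L) q → ℂ), GappedGround H Δ E Ω →
        ∀ A : Finset (Site L), entropyOf A Ω ≤ C * (bdry A : ℝ) ^ (2 - a)) := by
  intro q R J Δ hq hJ hΔ
  have hκ : 0 ≤ Real.log q := Real.log_nonneg (by exact_mod_cast hq)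
  refine ⟨?_, ?_⟩
  · obtain ⟨C, hC, hlay⟩ := layer q R hq J Δ hJ hΔ
    obtain ⟨A₀, c, hA₀, hc, hrec⟩ := rect_polylog (6 * C) (Real.log q) (by linarith) hκ
    obtain ⟨C', hC', hreg⟩ := region_polylog A₀ c (Real.log q) hA₀ hc hκ
    refine ⟨C', c + 1, hC', by linarith, ?_⟩
    intro L h Ω hF
    have hΩ : nsq Ω = 1 := hF.unit
    refine ⟨hF.admissible679, hF.gapped679 hΔ, fun A => ?_⟩
    have hn := fun B : Finset (Site L) => entropy_nonneg B Ω hΩ
    have hu := fun (B B' : Finset (Site L)) (hBB : Disjoint B B') => entropy_union B B' hBB Ω hΩ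
    have hcard := fun B : Finset (Site L) => entropy_le_card hq B Ω hΩ
    refine hreg L (fun B => entropyOf B Ω) hn hu (fun B => entropy_compl B Ω hΩ) hcard ?_ A
    refine hrec L (fun B => entropyOf B Ω) hn hu hcard ?_
    intro l x0 x1 y0 y1 hl h1 h2
    obtain ⟨w, hw, hS⟩ := hlay L h Ω hF l hl x0 x1 y0 y1 h1 h2
    have hl0 : 0 ≤ (l : ℝ) ^ (9 / 10 : ℝ) := by positivity
    refine ⟨w, hw.trans (by nlinarith), hS.trans (add_le_add ?_ (le_of_eq (by ring)))⟩
    exact mul_le_mul_of_nonneg_right (by linarith) (hn _)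
  · obtain ⟨ρ, C, hρ, hC, hcon⟩ := contraction q R hq J Δ hJ hΔ
    obtain ⟨c, a, hc, ha, ha1, hrect⟩ := rect_bound ρ hρ C (Real.log q) hC hκ
    obtain ⟨C', hC', hgen⟩ := general_region c a (Real.log q) hc ha ha1 hκ
    have ha2 : a / (1 + a) < 1 := by
      rw [div_lt_one (by linarith)]
      linarith
    refine ⟨a / (1 + a), C', by positivity, ha2, hC', ?_⟩
    intro L H hA E Ω hg A
    have hΩ : nsq Ω = 1 := hg.1
    refine hgen L (fun A => entropyOf A Ω) (fun A => entropy_nonneg A Ω hΩ)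
      (fun A B hAB => entropy_union A B hAB Ω hΩ) (fun A => entropy_compl A Ω hΩ)
      (fun A => entropy_le_card hq A Ω hΩ) ?_ A
    exact hrect L (fun A => entropyOf A Ω) (fun A => entropy_nonneg A Ω hΩ)
      (fun A B hAB => entropy_union A B hAB Ω hΩ) (fun A => entropy_le_card hq A Ω hΩ)
      (fun l x y x0 x1 y0 y1 => hcon L H hA E Ω hg l x y x0 x1 y0 y1)
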