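import Vale.Agent.P356.SV.Contr679
import Vale.Agent.P356.SV.Rect
import Vale.Agent.P356.SV.Region
import Vale.Agent.P356.SV.Ent

open Vale.Agent.P356 Vale.Agent.P356.SV

/-- Sub-volume law for every gapped Hamiltonian on the square and every region: the entanglement
entropy of the ground state is at most a constant times a power, smaller than the second, of the
boundary. The constants depend only on the local dimension, the range, the strength and the
gap. -/
theorem Vale.Agent.Results.P356.SubVolume.result :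
    ∀ (q R : ℕ) (J Δ : ℝ), 1 ≤ q → 0 < J → 0 < Δ →
      ∃ a C : ℝ, 0 < a ∧ a < 1 ∧ 0 ≤ C ∧
        ∀ (L : ℕ) (H : Op (Site L) q), Admissible L q R J H →
        ∀ (E : ℝ) (Ω : Conf (Site L) q → ℂ), GappedGround H Δ E Ω →
        ∀ A : Finset (Site L), entropyOf A Ω ≤ C * (bdry A : ℝ) ^ (2 - a) := by
  intro q R J Δ hq hJ hΔ
  obtain ⟨ρ, C, hρ, hC, hcon⟩ := contraction q R hq J Δ hJ hΔ
  have hκ : 0 ≤ Real.log q := Real.log_nonneg (by exact_mod_cast hq)
  obtain ⟨c, a, hc, ha, ha1, hrect⟩ := rect_bound ρ hρ C (Real.log q) hC hκ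
  obtain ⟨C', hC', hgen⟩ := general_region c a (Real.log q) hc ha ha1 hκ
  have ha2 : a / (1 + a) < 1 := by
    rw [div_lt_one (by linarith)]
    linarith
  refine ⟨a / (1 + a), C', by positivity, ha2, hC', ?_⟩
  intro L H hA E Ω hg A
  have hΩ : nsq Ω = 1 := hg.1
  refine hgen L (fun A => entropyOf A Ω) (fun A => entropy_nonneg A Ω hΩ)
    (fun A B hAB => entropy_union A B hAB Ω hΩ) (fun A => entropy_compl A Ω hΩ)
    (fun A => entropy_le_card hq A Ω hΩ) ?_ A
  exact hrect L (fun A => entropyOf A Ω) (fun A => entropy_nonneg A Ω hΩ)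
    (fun A B hAB => entropy_union A B hAB Ω hΩ) (fun A => entropy_le_card hq A Ω hΩ)
    (fun l x y x0 x1 y0 y1 => hcon L H hA E Ω hg l x y x0 x1 y0 y1)
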